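import Vale.Agent.P269.San2.Cub
import Vale.Agent.P269.Asm.Fin0

/-! The 27 lines on a smooth cubic surface, without hypotheses. -/

namespace Vale.Agent.P269

theorem St.kit : St.Kit :=
  kit_of well presZ (node well) (g1 well gLn nDn pRn) e0 (triv well)

open MvPolynomial in
theorem Tf.cubic (N r : ℕ) (d : Fin r → ℕ)
    (F : Fin r → MvPolynomial (Fin (N + 1)) ℂ) (hF : ∀ k, (F k).IsHomogeneous (d k))
    (hs : ∀ x ∈ Pub.cone F, LinearIndependent ℂ fun k j => eval x (pderiv j (F k)))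
    (hc : ConnectedSpace (Pub.Var F)) (hd : ∀ k, d k = 3) (hN : N = 3) (hr : r = 1)
    (z : Pub.Bm (Pub.Var F) → ℂ) (hz : ∀ β, Pub.IsBM β → Pub.IsGW (Y := Pub.Var F) F (Pub.cone F)
      (Quot.mk _) 0 β 0 Fin.elim0 1 (z β)) : ∑ᶠ β ∈ {β | Pub.IsBM β}, z β = 27 :=
  Tf.cubic_all St.kit N r d F hF hs hc hd hN hr z hz

end Vale.Agent.P269
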