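import Vale.Agent.P269.San2.Cnt
import Vale.Agent.P269.Qrr.ThC
import Vale.Agent.P269.Qrr.Bas
import Vale.Agent.P269.Asm.Ci

/-!
# The number of lines on a complete intersection all of whose lines are rigid
-/

set_option linter.unusedSectionVars false
set_option linter.style.haveILetI false

namespace Vale.Agent.P269.San2

open P291Z Set Function Topology Filter Module Cv Base Ch P1 Holo MvPolynomial

theorem smooth_one {Λ R J ν κ : Type} [Fintype Λ] [Fintype R] [Fintype J] [Fintype ν] [Fintype κ]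
    {m : AM Λ R J ν κ} {θ : R → ℤ} (hs : m.Stable θ) (a : deg (m.ω * bz m.L θ) = 1)
    (d : gen m.R m.N = 0) : m.Conn ∧ m.N = ∅ := by
  have n : Nonempty m.X := by_contra fun n => by
    rw [← degOn_univ, univ_eq_empty_iff.2 (not_nonempty_iff.1 n), degOn_empty] at a
    exact zero_ne_one a
  have b : ∀ U : Set m.X, IsClopen U → U = ∅ ∨ U = univ := fun U hU => by
    by_contra c
    have d := not_or.1 c
    have := hs U hU (nonempty_iff_ne_empty.2 d.1)
    have := hs _ hU.compl (nonempty_compl.2 d.2)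
    have := degOn_add_compl (L := m.ω * bz m.L θ) hU
    omega
  have : ConnectedSpace m.X := connectedSpace_iff_clopen.2 ⟨n, b⟩
  refine ⟨⟨n, fun U hU _ => b U hU⟩, Finset.card_eq_zero.1 ?_⟩
  have c := (degOn_K_ge (R := m.R) isClopen_univ isConnected_univ).1
  rw [degOn_univ, deg_K] at c
  rw [gen] at d
  omega

variable {J K ν κ : Type} [Fintype J] [Fintype K] [Fintype ν] [Fintype κ] [IsEmpty ν] [IsEmpty κ]
  {G : K → MvPolynomial J ℂ} {d : K → ℕ} {k D : ℕ}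

theorem smooth_ci {m : AM Empty Unit J ν κ} (hs : m.Stable (ciF G d).θ) (ht : m.Typ 0 1) :
    m.Conn ∧ m.N = ∅ :=
  smooth_one hs (by simp [deg_mul, AC.deg_ω, deg_bz, ht.1, ht.2, ciF, ciK, Tgt.fam]) ht.1

theorem lc_ci (hk : 30 ≤ k) (hD : (ciF G d).BigD k D) :
    Lc ((ciF G d).sch ν κ k D 0 1) (Mk ν κ) (ℓs ()) := by
  have hm : ∀ o, ((ciF G d).sch ν κ k D 0 1).m o = k + o.elim 0 1 := fun o => by
    cases o <;> simp [Fam.chart, Tgt.chart, ciF, ciK, Tgt.fam]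
  have h0 : ∀ o, 0 ≤ ((ciF G d).sch ν κ k D 0 1).m o := fun o => by
    rw [hm]
    cases o <;> simp <;> omega
  obtain ⟨l, hl⟩ := (Fam.chart_cuts (g := 0) (n := Fintype.card (Mk ν κ)) (d := 1) hD).cut
  have hw : ∀ j, ((ciF G d).sch ν κ k D 0 1).wd j = ℓs () := fun j => funext fun o => by
    rw [Fam.chart_wd']
    simp [ciF, ciK, Tgt.fam]
  have hχ : ((ciF G d).sch ν κ k D 0 1).χ = fun o => o.elim (1 + 3 * (k : ℤ)) fun _ => -(3 * k) :=
    (Cv.chart_χ 0 _ 1 hD).trans (funext fun o => by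
      cases o <;> simp [Tgt.hat, ciF, ciK, Tgt.fam] <;> ring)
  have hℓ : ∀ t : Option Unit → ℂ, ∏ i, t i ^ ℓs () i = t (some ()) / t none := fun t => by
    simp [ℓs, Tgt.hat, div_eq_inv_mul]
  have hp : ∀ t : Option Unit → ℂ, (∀ i, t i ≠ 0) → ∏ i, t i ^ ((ciF G d).sch ν κ k D 0 1).χ i =
      t none * (t none / t (some ())) ^ (3 * (k : ℤ)) := fun t ht => by
    simp [hχ, zpow_add₀ (ht _), div_eq_mul_inv, mul_zpow, mul_assoc]
  refine ⟨⟨rfl, fun o => ?_, h0, (hm none).ge.trans' (by simp; omega), fun l => ?_, (Fam.chart_cuts hD).ne,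
    ⟨l, fun i => le_trans (by norm_num) (hl i), le_trans (by norm_num) (hl _)⟩, ?_,
      Cv.sum_χ 0 _ 1 hD⟩, ⟨fun j => ?_, fun _ => two_ne_zero⟩, hw, Cv.sum_hat _,
      fun t h1 h2 h3 => ?_, fun b hb => ⟨fun o => o.elim (b ^ (3 * (k : ℤ))) fun _ =>
        b ^ (3 * (k : ℤ)) * b, ?_⟩⟩
  · exact (Int.toNat_of_nonneg (a := ((ciF G d).sch ν κ k D 0 1).m o + 1 - 0)
      (by have := h0 o; omega)).trans (sub_zero _)
  · refine (Int.toNat_of_nonneg (a := ∑ o, ((ciF G d).sch ν κ k D 0 1).a l o *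
      ((ciF G d).sch ν κ k D 0 1).m o + 1 - 0) ?_).trans (sub_zero _)
    have := Finset.sum_nonneg (s := Finset.univ) fun o _ =>
      mul_nonneg (Int.natCast_nonneg (((ciF G d).sch ν κ k D 0 1).a l o)) (h0 o)
    omega
  · simp [hχ, hm, show ((ciF G d).sch ν κ k D 0 1).k = k from rfl]
    ring
  · simp [hw, hm, ℓs, Tgt.hat]
  · rw [hℓ, div_eq_one_iff_eq (h1 _)] at h3
    rw [hp t h1, h3, div_self (h1 _), one_zpow, mul_one] at h2
    exact funext fun o => by cases o; exacts [h2, h3.trans h2]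
  · have := zpow_ne_zero (3 * (k : ℤ)) hb
    have e : ∀ o : Option Unit, (o.elim (b ^ (3 * (k : ℤ))) fun _ => b ^ (3 * (k : ℤ)) * b) ≠ 0 :=
      fun o => by cases o; exacts [this, mul_ne_zero this hb]
    refine ⟨e, ?_, ?_⟩
    · rw [hp _ e]
      simp only [Option.elim]
      rw [div_mul_cancel_left₀ this, inv_zpow, mul_inv_cancel₀ this]
    · rw [hℓ]
      exact mul_div_cancel_left₀ _ this

variable [Nonempty J] {I : Type} [Finite I] [Nonempty I] {C : I → J → Fin 2 → ℂ}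

theorem Lns.ev_vir (hC : Lns (ciF G d) C) (h : SmCI G d)
    (hd : ∑ q, (d q + 1) + 4 = 2 * Fintype.card J) (hk : 30 ≤ k) (hD : (ciF G d).BigD k D) :
    ev ((ciF G d).vir κ k D 0 1 (0 : ν → J → ℕ)) 1 = Nat.card I := by
  have o := h.tg.one h.nice (ciF_big hk)
  obtain ⟨_, b⟩ := o.pt
  obtain ⟨U, c⟩ := h.good.ok' ν κ h.tg.reg (Th.sm_zero b) o.big hD 0 1
  refine hC.ev_virF c h.nice.pol o.abs rfl (lc_ci hk hD) rfl ?_ fun x hx => ?_
  · have := congrArg (Nat.cast : ℕ → ℤ) hd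
    rw [Fam.chart_vdim]
    simp [Fam.vdim, ciF, ciK, Tgt.fam] at this ⊢
    linear_combination -this
  · obtain ⟨m, r⟩ := (Fam.chart_lat hD).exists_rep_sol hx
    obtain ⟨a1, a2⟩ := smooth_ci (Fam.rep_stable hD r hx.1.2.1) (Fam.rep_typ r hx.1.2.1)
    obtain ⟨B, π, v, t, e⟩ := r.exists_data hx.1.2.1
    refine ⟨e.conn.1 a1, fun y hy => ?_⟩
    obtain ⟨y, t, a, rfl⟩ := (e.cr.par.img y).1 hy
    simp [e.cr.par.isNode_iff a, Sm, a2]

/-- **the genus zero invariant of degree one without insertions is the number of lines** -/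
theorem Lns.cor (hC : Lns (ciF G d) C) (h : SmCI G d)
    (hd : ∑ q, (d q + 1) + 4 = 2 * Fintype.card J) (hk : 30 ≤ k) :
    (ciF G d).cor k (ciF G d).ex0 0 (ciF G d).cone (ciF G d).cone 1 (-1) [] [] [] = Nat.card I := by
  have o := h.tg.one h.nice (ciF_big hk)
  have a : ∀ᶠ D in atTop, (Nat.card I : ℂ) = (ciF G d).intg ((ciF G d).vir (Fin 0) k D 0 1
      (0 : Fin 0 ⊕ Fin 0 → J → ℕ)) (fun _ => True) ((ciF G d).fsF _ 1 Fin.elim0) :=
    (((ciF G d).eventually_bigD k).and (o.intg_eq 0 0 1)).mono fun D b => by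
      haveI := o.compactSpace (ν := Fin 0 ⊕ Fin 0) (κ := Fin 0) (g := 0) (d := 1) (u := 0) b.1
      rw [b.2, map_one, insC, List.ofFn_zero, List.prod_nil, mul_one, OneMemClass.coe_one,
        ← hcls_one, Loc.intg_hcls _ cocycle_one, hC.ev_vir h hd hk b.1]
  obtain ⟨D, b, c⟩ := (a.and (Classical.epsilon_spec (p := fun z => ∀ᶠ D in atTop,
    z = (ciF G d).intg ((ciF G d).vir (Fin 0) k D 0 1 (0 : Fin 0 ⊕ Fin 0 → J → ℕ)) (fun _ => True)
      ((ciF G d).fsF _ 1 Fin.elim0)) ⟨_, a⟩)).exists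
  exact ((ciF G d).cor_ofFnP k (fun _ _ _ => True) 1 1 (-1) Fin.elim0).trans (c.trans b.symm)

end Vale.Agent.P269.San2
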