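import Vale.Agent.P269.Edg.Sec
import Vale.Agent.P269.Qrr.ThD

/-!
# Parametrised lines and standard points
-/

set_option linter.unusedSectionVars false

namespace Vale.Agent.P269.San2

open Set Function Topology Filter Module Cv Base Ch P1 Edg
open OnePoint hiding some map_smul

variable {ι J ν : Type} [Fintype ι] [DecidableEq ι] [Fintype J] [Fintype ν] {ch : Ch ι J}

/-- the point of the line `c` with parameter `y` -/
noncomputable def pt (c : J → Fin 2 → ℂ) (y : OnePoint ℂ) : J → ℂ := fun j => ev 2 y (c j)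

variable {c c' : J → Fin 2 → ℂ} {y w : OnePoint ℂ}

theorem pt_coe (z : ℂ) (j : J) : pt c z j = c j 0 + z * c j 1 := by simp [pt, ev_apply]

theorem pt_infty (j : J) : pt c ∞ j = c j 1 := ev_infty 1 (c j)

theorem indep (h : ∀ y, pt c y ≠ 0) {α β : ℂ} (e : ∀ j, α * c j 0 + β * c j 1 = 0) :
    α = 0 ∧ β = 0 := by
  have a : α = 0 := by_contra fun a => h (β / α : ℂ) (funext fun j => by
    rw [pt_coe, Pi.zero_apply]
    field_simp
    linear_combination e j)
  refine ⟨a, by_contra fun b => h ∞ (funext fun j => ?_)⟩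
  simpa [a, b, pt_infty] using e j

theorem pt_inj (h : ∀ y, pt c y ≠ 0) {b : ℂ} (e : pt c w = b • pt c y) : w = y := by
  have k := congrFun e
  induction w using OnePoint.rec with
  | infty =>
    induction y using OnePoint.rec with
    | infty => rfl
    | coe z =>
      obtain ⟨a1, a2⟩ := indep h (α := b) (β := b * z - 1) fun j => by
        have := k j
        simp only [pt_coe, pt_infty, Pi.smul_apply, smul_eq_mul] at this
        linear_combination -this
      simp [a1] at a2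
  | coe u =>
    induction y using OnePoint.rec with
    | infty =>
      exact absurd (indep h (α := 1) (β := u - b) fun j => by
        have := k j
        simp only [pt_coe, pt_infty, Pi.smul_apply, smul_eq_mul] at this
        linear_combination this).1 one_ne_zero
    | coe z =>
      obtain ⟨a1, a2⟩ := indep h (α := 1 - b) (β := u - b * z) fun j => by
        have := k j
        simp only [pt_coe, Pi.smul_apply, smul_eq_mul] at this
        linear_combination this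
      exact congrArg _ (by linear_combination a2 - z * a1)

theorem eq_smul (h : ∀ y, pt c y ≠ 0) {b₀ b₁ b₂ : ℂ} (e₀ : pt c' (0 : ℂ) = b₀ • pt c (0 : ℂ))
    (e₁ : pt c' ∞ = b₁ • pt c ∞) (e₂ : pt c' (1 : ℂ) = b₂ • pt c (1 : ℂ)) : c' = b₂ • c := by
  have k₀ := congrFun e₀
  have k₁ := congrFun e₁
  have k₂ := congrFun e₂
  simp only [pt_coe, pt_infty, Pi.smul_apply, smul_eq_mul, zero_mul, add_zero, one_mul] at k₀ k₁ k₂
  obtain ⟨a1, a2⟩ := indep h (α := b₀ - b₂) (β := b₁ - b₂) fun j => by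
    linear_combination k₂ j - k₀ j - k₁ j
  refine funext fun j => funext (Fin.forall_fin_two.2 ⟨?_, ?_⟩)
  · exact (k₀ j).trans (by rw [sub_eq_zero.1 a1]; rfl)
  · exact (k₁ j).trans (by rw [sub_eq_zero.1 a2]; rfl)

/-- A chart for maps of degree one from the projective line without marked points. -/
structure Lc (ch : Ch ι J) (ν : Type) [Fintype ν] (ℓ : ι → ℤ) : Prop where
  gz : Gz ch ν
  dg : Dg ch fun _ => 2
  wd : ∀ j, ch.wd j = ℓ
  sum : ∑ i, ℓ i = 0
  inj : ∀ t : ι → ℂ, (∀ i, t i ≠ 0) → ∏ i, t i ^ ch.χ i = 1 → ∏ i, t i ^ ℓ i = 1 → t = 1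
  srj : ∀ b : ℂ, b ≠ 0 → ∃ t : ι → ℂ, (∀ i, t i ≠ 0) ∧ ∏ i, t i ^ ch.χ i = 1 ∧ ∏ i, t i ^ ℓ i = b

/-- The standard point that belongs to the line `c`. -/
structure Sl [IsEmpty ν] (x : ch.W ν) (c : J → Fin 2 → ℂ) : Prop where
  std : Std x isEmptyElim
  X : x.X = Edg.ind ch (fun _ => 2) c

variable [IsEmpty ν] {ℓ : ι → ℤ} (h : Lc ch ν ℓ) {x x' : ch.W ν} {s : ch.A ν}

theorem Sl.unique (a : Sl x c) (b : Sl x' c) : x' = x :=
  let ⟨e1, e2, e3⟩ := a.std.unique b.std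
  W.ext (congrFun e1) (congrFun e2) e3 (congrFun (b.X.trans a.X.symm))

include h

theorem Lc.exists_sp (c : J → Fin 2 → ℂ) : ∃ x : ch.W ν, Sl x c :=
  let ⟨x, a, b⟩ := h.gz.exists_std (q := isEmptyElim) (injective_of_subsingleton _)
    (Edg.ind ch (fun _ => 2) c)
  ⟨x, a, b⟩

theorem Lc.pt_act (a : Sl x c) (hs : IsUnit s) (b : Sl (act s x) c')
    (o : Orb (par ch w) fun i => s.1 i (par ch y i)) : ∃ β : ℂ, β ≠ 0 ∧ pt c y = β • pt c' w := by
  obtain ⟨t, ht, e⟩ := o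
  obtain ⟨_, -, d⟩ := a.std.exists_cr h.gz
  obtain ⟨_, -, d'⟩ := b.std.exists_cr h.gz
  refine ⟨∏ i, t i ^ ℓ i, prod_zpow_ne ht _, funext fun j => ?_⟩
  have k := congrFun (fld_act (x := x) (c := par ch y) hs) j
  rw [e, d'.fld_smul (ind_ind h.gz h.dg b.X j) w ht, d.fld_π (ind_ind h.gz h.dg a.X j), h.wd] at k
  exact k.symm

theorem Lc.exists_orb (a : Sl x c) (hs : IsUnit s) (b : Sl (act s x) c') (y : OnePoint ℂ) :
    ∃ w, Orb (par ch w) fun i => s.1 i (par ch y i) :=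
  (b.std.crv_eq h.gz).le ((mem_crv_act hs).2 ⟨_, mem_crv.2 ⟨_, a.std.par_mem h.gz y⟩, rfl⟩)

/-- the stabiliser is trivial -/
theorem Lc.eq_one (a : Sl x c) (hc : ∀ y, pt c y ≠ 0) (hs : IsUnit s) (e : act s x = x) :
    s = 1 := by
  have b : Sl (act s x) c := e.symm ▸ a
  have k : ∀ y, Orb (par ch y) fun i => s.1 i (par ch y i) := fun y => by
    obtain ⟨w, o⟩ := h.exists_orb a hs b y
    obtain ⟨β, -, d⟩ := h.pt_act a hs b o
    exact pt_inj hc d ▸ o
  obtain ⟨α, t, h1, h2, rfl, -, h3⟩ := a.std.eq_dgA h.gz hs b.std (k _) (k _)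
  have d := ind_injective h.gz h.dg ((act_ind h.gz h.dg a.X h1 h2).symm.trans b.X)
  simp only [h.wd] at d
  obtain ⟨d1, d2⟩ := indep hc (α := (∏ i, t i ^ ℓ i)⁻¹ - 1) (β := 0) fun j => by
    have := congrFun₂ d j 0
    simp only [Fin.val_zero, pow_zero, mul_one] at this
    linear_combination this
  obtain ⟨d3, d4⟩ := indep hc (α := 0) (β := ((∏ i, t i ^ ℓ i) * α)⁻¹ - 1) fun j => by
    have := congrFun₂ d j 1
    simp only [Fin.val_one, pow_one] at this
    linear_combination this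
  have d5 := inv_eq_one.1 (sub_eq_zero.1 d1)
  rw [d5, one_mul, sub_eq_zero, inv_eq_one] at d4
  subst d4
  rw [Th.nf_one, one_pow, mul_one] at h3
  rw [h.inj t h2 h3 d5, dgA_one]

/-- reparametrisation of a line -/
theorem Lc.exists_act (a : Sl x c) (hc : ∀ y, pt c' y ≠ 0)
    (e : ∀ w, ∃ (y : OnePoint ℂ) (β : ℂ), pt c' w = β • pt c y) :
    ∃ s, IsUnit s ∧ Sl (act s x) c' := by
  choose y β e using e
  have hβ : ∀ w, β w ≠ 0 := fun w b => hc w (by rw [e, b, zero_smul])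
  let v : Fin 3 → OnePoint ℂ := ![(0 : ℂ), ∞, (1 : ℂ)]
  have hv : Injective v := fun i j b => by fin_cases i <;> fin_cases j <;> simp_all [v]
  obtain ⟨s, q, hs, b, d⟩ := h.gz.hom (a.std.mem_base h.gz) (a.std.isConnected h.gz)
    (a.std.not_node h.gz) (Fintype.card_fin 3).le (c := fun k => par ch (y (v k)))
    (fun k => mem_crv.2 ⟨_, a.std.par_mem h.gz _⟩) (fun k k' o => hv (pt_inj hc
      (b := β (v k) / β (v k')) (by
        rw [e, e, h.gz.eq_of_orb o, smul_smul, div_mul_cancel₀ _ (hβ _)]))) hv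
  obtain rfl : q = isEmptyElim := funext isEmptyElim
  obtain ⟨_, -, f⟩ := a.std.exists_cr h.gz
  obtain ⟨_, -, f'⟩ := b.exists_cr h.gz
  choose u hu using fun j => (f'.exists_ind_iff (j := j)).2 fun p hp => by
    obtain ⟨p, g, rfl⟩ := (mem_crv_act hs).1 hp
    exact (f.exists_ind_iff.1 ⟨_, ind_ind h.gz h.dg a.X j⟩ p g).imp fun _ => (val_act hs).2
  obtain ⟨c₁, g, -⟩ := exists_co h.gz h.dg hu
  have k : ∀ i, ∃ γ : ℂ, γ ≠ 0 ∧ pt c₁ (v i) = γ • pt c' (v i) := fun i => by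
    obtain ⟨γ, g1, g2⟩ := h.pt_act a hs ⟨b, g⟩ (d i)
    exact ⟨(β (v i) * γ)⁻¹, inv_ne_zero (mul_ne_zero (hβ _) g1), by
      rw [e, g2, smul_smul, smul_smul, mul_assoc, inv_mul_cancel₀ (mul_ne_zero (hβ _) g1), one_smul]⟩
  obtain ⟨_, -, k₀⟩ := k 0
  obtain ⟨_, -, k₁⟩ := k 1
  obtain ⟨γ, hγ, k₂⟩ := k 2
  obtain rfl := eq_smul hc k₀ k₁ k₂
  obtain ⟨t, h1, h2, h3⟩ := h.srj γ hγ
  refine ⟨dgA ch isEmptyElim 1 t * s, (isUnit_dgA one_ne_zero h1).mul hs, ?_⟩
  rw [act_mul, Th.act_dgA b h1 h2]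
  refine ⟨b.congr rfl rfl rfl, (scl_ind h.gz h.dg g _).trans (congrArg _ (funext₂ fun j i => ?_))⟩
  rw [h.wd, h3]
  exact inv_mul_cancel_left₀ hγ _

end Vale.Agent.P269.San2
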