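import Vale.Agent.P269.Map.TrvA
import Vale.Agent.P269.Qrr.ThV

/-!
# The values at moving points separate the obstruction space
-/

set_option linter.unusedSectionVars false

namespace Vale.Agent.P269.San2

open P291Z Set Function Topology Filter Base Holo Ch Th

variable {S Λ R J K ι ν κ : Type} [Fintype S] [Fintype Λ] [Fintype R] [Fintype J] [Fintype K]
  [Fintype ι] [DecidableEq ι] [Fintype ν] [Fintype κ] {ch : Ch ι J} {F : Fam S Λ R J K}
  {e : K → ι → ℕ} {x : ch.WF ν κ Λ} {O : Set (ch.WF ν κ Λ)}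

theorem cont_tst {w : ch.P K} (hw : w ∈ ch.polF F e) (t) : Continuous fun z => tst z t w := by
  rcases t with ⟨j, m⟩ | ⟨k, ζ⟩
  · exact (cont_G1 ((mem_polS.1 hw).1 j)).comp (continuous_id.prodMk continuous_const)
  · exact (cont_G2 ((mem_polS.1 hw).2 k)).comp (continuous_id.prodMk continuous_const)

theorem an_tst {z : ch.WF ν κ Λ → ch.Pt} (hz : AnalyticAt ℂ z x) (t) :
    AnalyticAt ℂ (fun y => tst (z y) t (sctF F e y)) x := by
  have h1 : AnalyticAt ℂ (fun y => (z y).1) x := analyticAt_fst.comp hz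
  have h2 : ∀ j μ, AnalyticAt ℂ (fun y => (z y).2 (some j) (y.2.X j μ)) x := fun j μ =>
    an_apply (analyticAt_pi_iff.1 (analyticAt_snd.comp hz) _)
      (an_apply (W.an_X analyticAt_snd j) analyticAt_const)
  rcases t with ⟨j, m⟩ | ⟨k, ζ⟩
  · exact (((analyticAt_val m.2 _).comp h1).mul (h2 j _)).sub
      (((analyticAt_val m.1 _).comp h1).mul (h2 j _))
  change AnalyticAt ℂ (fun y : ch.WF ν κ Λ => (sctF F e y).2 k (z y) ζ) x
  simp only [sctF_snd, eval_hp]
  exact Finset.analyticAt_fun_sum _ fun α _ =>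
    (((AnalyticOnNhd.eval_mvPolynomial _ _ trivial).comp analyticAt_fst).mul
      (Finset.analyticAt_fun_prod _ fun j _ => (h2 j _).fun_pow _)).mul
      (Finset.analyticAt_fun_prod _ fun i _ =>
        (((ζ i).analyticAt _).comp (analyticAt_pi_iff.1 h1 i)).fun_pow _)

theorem van_of_tst (hN : Num₀ ch) (hx : x.2 ∈ ch.base _) (hO : ∀ y ∈ O, y.2 ∈ ch.base _)
    {w : ch.P K} (hw : w ∈ ch.polF F e)
    (H : ∀ m ψ, (ch.kd ν κ F e).Tst O x m ψ → m x w = 0) : w ∈ vanM F e x := by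
  refine mem_vanM.2 ⟨hw, fun z hz => tst_zero.2 fun t => ?_⟩
  have a : ∀ c u, (c, u) ∈ gr x.2 → ¬IsNode ch.o (crv x.2) c → tst (c, u) t w = 0 := by
    intro c₀ u₀ h1 h2
    obtain ⟨c, h3, rfl, h4⟩ := exists_mov_pt hN hx (mem_crv.2 ⟨u₀, h1⟩) h2
    obtain ⟨U, h5, h6⟩ := exists_an_ev hx.1 (c x)
    have h7 : AnalyticAt ℂ (fun y => (y.2, c y)) x := analyticAt_snd.prod h3
    have h8 := h3.prod (h5.comp_of_eq h7 rfl)
    have h9 := h7.continuousAt.eventually h6
    refine h9.self_of_nhds _ h1 ▸ H (fun y => tst (c y, U (y.2, c y)) t) _ ⟨an_tst h8 t,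
      fun w hw => (h8.eventually_analyticAt.filter_mono nhdsWithin_le_nhds).mono fun y a =>
        ((cont_tst hw t).continuousAt.comp a.continuousAt).continuousWithinAt, ?_,
      .of_forall fun _ => rfl⟩
    filter_upwards [eventually_nhdsWithin_iff.2 (h4.mono fun y a b => a (hO y b)),
      h9.filter_mono nhdsWithin_le_nhds] with y a b w hw
    obtain ⟨v, hv⟩ := mem_crv.1 a
    exact tst_zero.1 ((mem_vanM.1 hw).2 _ (b v hv ▸ hv)) t
  obtain ⟨U, h1, h2⟩ := exists_an_ev hx.1 z.1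
  have h3 : ContinuousAt (fun c => tst (c, U (x.2, c)) t w) z.1 :=
    (cont_tst hw t).continuousAt.comp (continuousAt_id.prodMk
      (h1.continuousAt.comp (tendsto_inr _ _)))
  have h4 := isClosed_singleton.mem_of_frequently_of_tendsto (s := {0})
    (((hx.2.2.1.nod.frequently_not_node (β := Empty) Empty.elim (mem_crv.2 ⟨z.2, hz⟩)).and_eventually
      (Eventually.and self_mem_nhdsWithin (((tendsto_inr _ _).eventually h2).filter_mono
        nhdsWithin_le_nhds))).mono fun c ⟨k1, k2, k3⟩ =>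
          let ⟨v, hv⟩ := mem_crv.1 k2
          a c _ (k3 v hv ▸ hv) k1.2) (h3.tendsto.mono_left nhdsWithin_le_nhds)
  exact (congrArg (fun u => tst (z.1, u) t w) (h2.self_of_nhds z.2 hz)).trans h4

theorem sep_kd (hN : Num₀ ch) (hx : x.2 ∈ ch.base _) (hO : ∀ y ∈ O, y.2 ∈ ch.base _) :
    (ch.kd ν κ F e).Sep O x := fun _ hw => van_of_tst hN hx hO hw.1

end Vale.Agent.P269.San2
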