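import Vale.Agent.P269.San2.Iso
import Vale.Agent.P269.San2.Sep
import Vale.Agent.P269.San2.Ln

/-!
# The virtual number of lines is the number of lines if all lines are rigid
-/

set_option linter.unusedSectionVars false
set_option linter.style.haveILetI false

namespace Vale.Agent.P269.San2

open P291Z Set Function Topology Filter Module Cv Base Ch P1 Edg Holo Th

variable {R J K ι ν κ : Type} [Fintype R] [Fintype J] [Fintype K] [Fintype ι] [DecidableEq ι]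
  [Fintype ν] [Fintype κ] [IsEmpty ν] [IsEmpty κ] {ch : Ch ι J} {F : Fam Empty Empty R J K}
  {e : K → ι → ℕ} {ℓ : R → ι → ℤ} {K₀ : Set K} {U : Set (ch.WF ν κ Empty)} {ℓ₀ : ι → ℤ}

theorem actF_eq (a : ch.AF ν κ Empty) (x : ch.WF ν κ Empty) :
    actF F.toWt a x = (x.1, act (dup a.2) x.2) :=
  Prod.ext (Subsingleton.elim _ _) ((actF_snd).trans (congrArg _ ((congrArg (scl · x.2)
    (funext fun _ => Fintype.prod_empty _)).trans (scl_one _))))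

theorem exists_dup {s : ch.A (Mk ν κ)} (hs : IsUnit s) :
    ∃ a : ch.AF ν κ Empty, IsUnit a ∧ dup a.2 = s :=
  ⟨(1, s.1, s.2.1, 1), Prod.isUnit_iff.2 ⟨isUnit_one, Cv.isUnit_iff.2
    ⟨(Cv.isUnit_iff.1 hs).1, (Cv.isUnit_iff.1 hs).2.1, isEmptyElim⟩⟩,
    Prod.ext rfl (Prod.ext rfl (Subsingleton.elim _ _))⟩

theorem exists_coord {P : Type} [AddCommGroup P] [Module ℂ P] (Q : Submodule ℂ P)
    (h : FiniteDimensional ℂ Q) :
    ∃ (d : ℕ) (j : (Fin d → ℂ) →ₗ[ℂ] P), Injective j ∧ LinearMap.range j = Q :=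
  let ε := (Module.finBasis ℂ Q).equivFun
  ⟨_, Q.subtype ∘ₗ ε.symm.toLinearMap, Subtype.val_injective.comp ε.symm.injective, by
    rw [LinearMap.range_comp_of_range_eq_top _ ε.symm.range, Submodule.range_subtype]⟩

/-- A complete system of rigid lines. -/
structure Lns (F : Fam Empty Empty R J K) {I : Type} (C : I → J → Fin 2 → ℂ) : Prop where
  ne : ∀ z ∈ F.cone, z.2 ≠ 0
  mem : ∀ i y, (0, pt (C i) y) ∈ F.cone
  all : ∀ c, (∀ y, (0, pt c y) ∈ F.cone) → ∃ i, ∀ w, ∃ y, ∃ β : ℂ, pt (C i) w = β • pt c y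
  dis : ∀ i j, (∀ y, ∃ w, ∃ β : ℂ, pt (C i) y = β • pt (C j) w) → i = j
  rig : ∀ i, ∃ N : Submodule ℂ (J → Fin 2 → ℂ), finrank ℂ N ≤ 4 ∧
    ∀ c, (∀ y k, ∑ j, F.jac (0, pt (C i) y) k j * pt c y j = 0) → c ∈ N

variable [DecidableEq R] {I : Type} [Finite I] [Nonempty I] {C : I → J → Fin 2 → ℂ}

theorem Lns.ev_virF (hC : Lns F C) (h : ch.Ok F e K₀ ℓ 0 U) (hE : F.PolE) (hA : F.Abs)
    (hm : F.mov = univ) (hL : Lc ch (Mk ν κ) ℓ₀) (hι : Fintype.card ι = 2)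
    (hv : ch.vdim ν κ F ℓ K₀ 0 0 = 0)
    (hs : ∀ x ∈ ch.solF ν κ F, IsConnected (crv x.2) ∧ ∀ c ∈ crv x.2, ¬IsNode ch.o (crv x.2) c) :
    ev (virF F e (ch.cyc κ F (0 : ν → J → ℕ))) 1 = Nat.card I := by
  classical
  have v : Vm F e (0 : ν → J → ℕ) U _ := h.vd_sh hE (sh_abs hA) 0
  have em := main_eq (ν := ν) (κ := κ) hA h.inv h.cuts
  obtain ⟨n, g⟩ := v.gd h.toStd
  obtain ⟨O, hO, eO⟩ := v.dom.opn
  choose x hx using fun i => hL.exists_sp (C i)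
  have ms : ∀ {y : ch.W (Mk ν κ)} (b : Std y isEmptyElim), (0, y) ∈ ch.solF ν κ F ↔ _ := fun b =>
    Edg.mem_solF hL.gz hL.dg b (fun j => hL.wd j ▸ hL.sum) h.inv h.wt
  have b0 : ∀ i, (0, x i) ∈ ch.solF ν κ F := fun i => (ms (hx i).std).2 ⟨_, (hx i).X, hC.mem i⟩
  have bz := fun i => hA.sol_subset h.inv (b0 i)
  have ne : ∀ i y, pt (C i) y ≠ 0 := fun i y => hC.ne _ (hC.mem i y)
  obtain ⟨i₀⟩ := ‹Nonempty I›
  have b1 := (h.num.mfd_main h.sm (h.lat.gr h.inv (sh_abs hA) 0) (em.ge (bz i₀))).1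
  have b2 := vdim_eq (F := F) (ℓ := ℓ) (K₀ := K₀) (b := 0) h.cuts.ne (b0 i₀).1.2.1 0
  have b3 := h.toStd.rk_nonneg (b0 i₀)
  have b4 : ∀ j, ch.eu (ch.wd j) = 2 := fun j => by
    rw [eu, hL.gz.g, sub_zero, ← hL.dg.eq j]
    rfl
  have b5 : ch.rk F ℓ K₀ + 4 = finrank ℂ (P1.Fl ch) := by
    have a : ∀ j, ch.eu (fun i => ch.a (some j) i) = ch.h (some j) := fun j =>
      (h_eq₁ (b0 i₀).1.2.1 (h.cuts.ne _)).symm
    have a' : ∀ j, ch.eu (fun i => ch.a (some j) i - ch.b j i) = 2 := b4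
    simp only [vdim, b4, hL.gz.g, hι, hm, mem_univ, Finset.filter_true] at hv
    simp only [rk, finrank_Fl', a, a', Finset.sum_sub_distrib, hm, mem_univ, Finset.filter_true]
    simp only [Fintype.card_eq_zero] at hv
    push_cast at hv ⊢
    linear_combination -hv
  have b6 : (ch.dimM ν κ F 0 (Fintype.card Empty)).toNat - finrank ℂ (ch.AF ν κ Empty) =
      (ch.rk F ℓ K₀).toNat := by
    rw [Fintype.card_empty] at b1 ⊢
    omega
  rw [v.virF_vr h.toStd]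
  have m := v.cyc.mfd
  rw [em, b6] at m
  refine (congrArg (fun d => ev ((ch.kd ν κ F e).vr _ _ _ (g.fu d)) 1) b6).trans
    (ev_pts g (p := fun i => (0, x i)) (fun y hy => ⟨hy, m ⟨y, hy⟩⟩) (fun i => ⟨b0 i, bz i⟩)
      (fun y hy => ?_) (fun i j a ha k => ?_) (fun y hy => sep_kd h.num hy.1.1.2.1
        fun z hz => hz.1.1.2.2.1) fun i => ?_)
  · obtain ⟨s, a1, a2⟩ := hL.gz.hom_mark (q := isEmptyElim) hy.1.1.2.1 (hs y hy.1).1 (hs y hy.1).2
      (by simp) (injective_of_subsingleton _)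
    obtain ⟨a, ha, rfl⟩ := exists_dup a1
    have a3 := actF_mem_solF h.inv ha hy.1
    rw [actF_eq, Subsingleton.elim y.1 0] at a3
    obtain ⟨c, a4, a5⟩ := (ms a2).1 a3
    obtain ⟨i, a6⟩ := hC.all c a5
    obtain ⟨s, a7, a8⟩ := hL.exists_act ⟨a2, a4⟩ (ne i) a6
    obtain ⟨a', ha', a9⟩ := exists_dup (a7.mul a1)
    refine ⟨a', ha', i, ?_⟩
    rw [actF_eq, a9, Ch.act_mul]
    exact Prod.ext (Subsingleton.elim _ _) ((hx i).unique a8)
  · have a1 : act (dup a.2) (x i) = x j := congrArg Prod.snd ((actF_eq a _).symm.trans k)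
    have a2 := isUnit_dupF ha
    have a3 : Sl (act (dup a.2) (x i)) (C j) := a1 ▸ hx j
    obtain rfl := hC.dis i j fun y =>
      let ⟨w, o⟩ := hL.exists_orb (hx i) a2 a3 y
      let ⟨β, _, d⟩ := hL.pt_act (hx i) a2 a3 o
      ⟨w, β, d⟩
    have a4 := hL.eq_one (hx i) (ne i) a2 a1
    exact ⟨rfl, Prod.ext (Subsingleton.elim _ _) (Prod.ext (congrArg (·.1) a4)
      (Prod.ext (congrArg (·.2.1) a4) (Subsingleton.elim _ _)))⟩
  obtain ⟨N, a1, a2⟩ := hC.rig i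
  let T : P1.Fl ch →ₗ[ℂ] ch.WF ν κ Empty := LinearMap.inr ℂ _ _ ∘ₗ (fl ch (Mk ν κ)).toLinearMap
  have hT : Injective T := LinearMap.inr_injective.comp fl_injective
  have st : ∀ (ε : ℂ) X, Std ((0, x i) + ε • T X : ch.WF ν κ Empty).2 isEmptyElim := fun ε X =>
    (hx i).std.congr (funext fun l => ContinuousLinearMap.ext fun μ =>
      (congrArg ((x i).Q l μ + ·) (smul_zero ε)).trans (add_zero _)) (Subsingleton.elim _ _)
      (ContinuousLinearMap.ext fun μ => (congrArg ((x i).Ξ μ + ·) (smul_zero ε)).trans (add_zero _))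
  have mo : ∀ X, ∀ᶠ ε : ℂ in 𝓝 0, (0, x i) + ε • T X ∈
      ch.cyc κ F (0 : ν → J → ℕ) ∩ U ∩ ch.dom ν κ F e := fun X => by
    have c : Tendsto (fun ε : ℂ => (0, x i) + ε • T X) (𝓝 0) (𝓝 (0, x i)) :=
      Continuous.tendsto' (by fun_prop) _ _ (by simp)
    exact (c.eventually (hO.mem_nhds (eO.le (g.dom.sub ⟨b0 i, bz i⟩)).2)).mono fun ε a =>
      eO.ge ⟨(hA.mem_cyc h.inv).2 ⟨⟨mem_of_eq_of_mem (Subsingleton.elim _ _) (b0 i).1.1,
        (st ε X).mem_base hL.gz, isEmptyElim⟩, fun j hj => (hj (hm ▸ trivial)).elim⟩, a⟩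
  obtain ⟨d, j, j1, j2⟩ := exists_coord (ch.polF F e) g.ok.fin
  have hj : ∀ u, j u ∈ ch.polF F e := fun u => j2.le ⟨u, rfl⟩
  obtain ⟨Φ, c1, c2⟩ := exists_an (ν := ν) (κ := κ) (i := j) h.fits 0 j1 j2
  refine ⟨T.range, N.map (T ∘ₗ (Edg.ind ch fun _ => 2).toLinearMap), ?_, ?_, ?_⟩
  · have := (Submodule.finrank_map_le (T ∘ₗ (Edg.ind ch fun _ => 2).toLinearMap) N).trans a1
    rw [LinearMap.finrank_range_of_inj hT]
    omega
  · rintro _ ⟨X, rfl⟩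
    exact mo X
  rintro _ ⟨X, rfl⟩ H
  have c3 : AnalyticAt ℂ (fun y : ch.WF ν κ Empty => Φ y.2) (0, x i) :=
    (c1 _).comp analyticAt_snd
  have c4 : fderiv ℂ (fun y : ch.WF ν κ Empty => Φ y.2) (0, x i) (T X) =
      fderiv ℂ Φ (x i) (fl ch _ X) := by
    have := (HasFDerivAt.comp (f := Prod.snd) ((0 : Empty → ℂ), x i)
      (c1 (x i)).differentiableAt.hasFDerivAt hasFDerivAt_snd).fderiv
    exact DFunLike.congr_fun this (T X)
  obtain ⟨c, rfl, c5⟩ := exists_of_van hL.gz hL.dg h.fits hm c1 c2 (hx i).std (hx i).X (X := X)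
    (van_of_tst (O := ch.cyc κ F (0 : ν → J → ℕ) ∩ U ∩ ch.dom ν κ F e) h.num (b0 i).1.2.1
      (fun z hz => hz.1.1.2.2.1) (hj _) fun m ψ b => by
      rw [← c4, ← fderiv_tst (D := ch.kd ν κ F e) hj (g.dom.sub ⟨b0 i, bz i⟩) c3 (fun y =>
        (c2 _).trans (congrArg (fun l => sctF F e (l, y.2)) (Subsingleton.elim _ _)))
        ((mo X).mono fun ε a => ⟨a, ?_⟩) b, H m ψ b]
      exact (congrArg (fun l => vanM F e (l, _)) (Subsingleton.elim _ _)).le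
        ((vanM_eq (hx i).std (st ε X)).le (sctF_mem_vanM h.fits (b0 i))))
  exact ⟨c, a2 c c5, rfl⟩

end Vale.Agent.P269.San2
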