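import Vale.Agent.P269.San2.Fer
import Vale.Agent.P269.Coh.TrC
import Vale.Agent.P269.Pub.T7
import Vale.Agent.P269.Bas.Fib
import Vale.Agent.P269.Bas.Num
import Vale.Agent.P269.Bas.Supp
import Vale.Agent.P269.Map.PresZ
import Vale.Agent.P269.Map.Well

/-!
# The 27 lines on a smooth cubic surface, counted by the invariants
-/

namespace Vale.Agent.P269

open P291Z Set Function Filter MvPolynomial San2

/-- The genus zero invariants of degree one without insertions, summed over all classes. -/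
theorem SmCI.sum_one {J K : Type} [Fintype J] [Fintype K] [Nonempty J] {F : K → MvPolynomial J ℂ}
    {d : K → ℕ} (h : SmCI F d) {k : ℕ} (hk : 30 ≤ k) :
    ∑ᶠ β, (ciF F d).cor k ((ciF F d).exK (ciF F d).cone β) 0 (ciF F d).cone (ciF F d).cone 1 (-1)
      [] [] [] =
      TrC.co F d k 1 (-1) [] [] := by
  have : IsEmpty (Fin ([] : List (ℕ × H ((ciF F d).X (ciF F d).cone))).length) := Fin.isEmpty'
  rw [← h.tg.cor_exC (St.add St.well) St.supp (ciF_big hk), TrC.co, Fam.cor_eq0, Fam.cor_eq0]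
  exact Fam.inv_congr h.tg.toInv (fun _ _ e => e.conn) (fun _ _ _ _ => trivial)
    (fun m _ b c => iff_true_intro (smooth_ci b c).1) _

theorem SmCI.co_cubic (hK : St.Kit) {J K : Type} [Fintype J] [Fintype K] [Nonempty J]
    {F : K → MvPolynomial J ℂ} (h : SmCI F fun _ => 3) (hJ : Fintype.card J = 4)
    (hc : Fintype.card K = 1) {k : ℕ} (hk : 30 ≤ k) : TrC.co F (fun _ => 3) k 1 (-1) [] [] = 27 := by
  obtain ⟨_⟩ := Fintype.card_eq_one_iff_nonempty_unique.1 hc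
  obtain ⟨g, -, -, -, -, e⟩ := TrC.exists_same hK St.dfm smCI_fer h
  refine (e k hk 1 (-1) [] []).trans (((lns_fer (Fintype.equivFinOfCardEq hJ)).cor smCI_fer
    (by simp [hJ]) hk).trans ?_)
  rw [card_Ix]
  rfl

theorem Tgt.exists_val {J K : Type} [Fintype J] [Fintype K] {T : Tgt Unit J K} {χ : K → Unit → ℤ}
    (h : (T.fam χ).Tg) {k : ℕ} (hk : (T.fam χ).Big k) (g d : ℤ) : ∃ V : BM T.X → ℂ,
      (∀ β w, Tf.GWo T g β 0 0 Fin.elim0 (fun _ => d) w ↔ w = V β) ∧ ∑ᶠ β, V β = ∑ᶠ β,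
        (T.fam χ).cor k ((T.fam χ).exK (T.fam χ).cone β) 0 (T.fam χ).cone (T.fam χ).cone (fun _ => d)
          (g - 1) [] [] [] := by
  refine ⟨_, fun β => ?_, finsum_comp_equiv (T.xiB χ)⟩
  rw [show (Fin.elim0 : Fin 0 → Coch T.X) = fun i => (Fin.elim0 i : Zs T.X).1 from
    Subsingleton.elim _ _]
  refine Tf.gwo_val ?_ fun _ => rfl
  filter_upwards [Tgt.valC h hk St.well St.pres g (fun _ => d) β 0
    fun i : Fin 0 => H.mk (Fin.elim0 i), eventually_ge_atTop k] with k' b b'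
  rw [List.ofFn_zero] at b
  exact b.and (Tgt.cpc_chart h (hk.mono b') g _ β (by simp [Ch.Mk]) 0)

theorem Tf.exists_sum {X : Type} [TopologicalSpace X] (V : BM X → ℂ) {P : Pub.Bm X → ℂ → Prop}
    (h : ∀ β w, P (Tf.fn β) w ↔ w = V β) : ∃ z : Pub.Bm X → ℂ, (∀ β, Pub.IsBM β → ∀ w,
      P β w ↔ w = z β) ∧ ∑ᶠ β ∈ {β | Pub.IsBM β}, z β = ∑ᶠ β, V β := by
  have e := Tf.fn_inj.extend_apply V 0
  refine ⟨extend Tf.fn V 0, fun β hβ w => ?_, ?_⟩
  · obtain ⟨β, rfl⟩ := Tf.isBM_iff.1 hβ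
    rw [e, h]
  · rw [show {β | Pub.IsBM β} = range (Tf.fn (X := X)) from Set.ext fun _ => Tf.isBM_iff,
      finsum_mem_range Tf.fn_inj]
    simp only [e]

/-- **The 27 lines.** -/
theorem Tf.cubic_of (hK : St.Kit) (N r : ℕ) (d : Fin r → ℕ)
    (F : Fin r → MvPolynomial (Fin (N + 1)) ℂ) (hF : ∀ k, (F k).IsHomogeneous (d k))
    (hs : ∀ x ∈ Pub.cone F, LinearIndependent ℂ fun k j => eval x (pderiv j (F k)))
    (hc : ConnectedSpace (Pub.Var F)) (hd : ∀ k, d k = 3) (hN : N = 3) (hr : r = 1) :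
    ∃ z : Pub.Bm (Pub.Var F) → ℂ, (∀ β, Pub.IsBM β → ∀ w, Pub.IsGW (Y := Pub.Var F) F (Pub.cone F)
      (Quot.mk _) 0 β 0 Fin.elim0 1 w ↔ w = z β) ∧ ∑ᶠ β ∈ {β | Pub.IsBM β}, z β = 27 := by
  obtain rfl : d = fun _ => 3 := funext hd
  revert hs hc
  refine Tf.transport (F := F) (P := fun act S => (∀ x ∈ S, LinearIndependent ℂ fun k j =>
    eval x (pderiv j (F k))) → ConnectedSpace (Pub.Quo act S) →
      ∃ z : Pub.Bm (Pub.Quo act S) → ℂ, (∀ β, Pub.IsBM β → ∀ w, Pub.IsGW (Y := Pub.Quo act S) F S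
        (Quot.mk _) 0 β 0 Fin.elim0 1 w ↔ w = z β) ∧ ∑ᶠ β ∈ {β | Pub.IsBM β}, z β = 27)
    fun hs (hc : ConnectedSpace (ci F).X) => ?_
  obtain ⟨⟨x, hx⟩, -⟩ := Quot.exists_rep (Classical.arbitrary (ci F).X)
  have sm := Tf.smCI hF hs hx
  obtain ⟨V, a, b⟩ := Tgt.exists_val (T := ci F) sm.tg (ciF_big le_rfl) 0 1
  refine (Tf.exists_sum (X := (ci F).X) V fun β w => ?_).imp fun z c => ⟨c.1, c.2.trans
    (b.trans ((sm.sum_one le_rfl).trans (sm.co_cubic hK (by simp [hN]) (by simp [hr]) le_rfl)))⟩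
  rw [show (Fin.elim0 : Fin 0 → ℕ × Pub.Co (Pub.Quo (ci F).act (ci F).cone)) =
    fun i => ((0 : Fin 0 → ℕ) i, ((Fin.elim0 i : Coch (ci F).X)).1) from Subsingleton.elim _ _]
  exact (Tf.isGW_iff F).trans (a β w)

/-- The same for every choice of values. -/
theorem Tf.cubic_all (hK : St.Kit) (N r : ℕ) (d : Fin r → ℕ)
    (F : Fin r → MvPolynomial (Fin (N + 1)) ℂ) (hF : ∀ k, (F k).IsHomogeneous (d k))
    (hs : ∀ x ∈ Pub.cone F, LinearIndependent ℂ fun k j => eval x (pderiv j (F k)))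
    (hc : ConnectedSpace (Pub.Var F)) (hd : ∀ k, d k = 3) (hN : N = 3) (hr : r = 1)
    (z : Pub.Bm (Pub.Var F) → ℂ) (hz : ∀ β, Pub.IsBM β → Pub.IsGW (Y := Pub.Var F) F (Pub.cone F)
      (Quot.mk _) 0 β 0 Fin.elim0 1 (z β)) : ∑ᶠ β ∈ {β | Pub.IsBM β}, z β = 27 := by
  obtain ⟨z', a, b⟩ := Tf.cubic_of hK N r d F hF hs hc hd hN hr
  exact (finsum_mem_congr rfl fun β e => (a β e _).1 (hz β e)).trans b

end Vale.Agent.P269
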