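import Vale.Agent.P269.San2.Ci

/-!
# The 27 lines on the Fermat cubic surface
-/

set_option linter.unusedSectionVars false

namespace Vale.Agent.P269.San2

open Set Function Module MvPolynomial
open OnePoint hiding some map_smul

section gen

variable {J : Type} [Fintype J]

theorem exists_par (u v : ℂ) :
    ∃ y, ∃ β : ℂ, ∀ (c : J → Fin 2 → ℂ) j, u * c j 0 + v * c j 1 = β * pt c y j := by
  by_cases h : u = 0
  · exact ⟨∞, v, fun c j => by simp [h, pt_infty]⟩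
  · exact ⟨(v / u : ℂ), u, fun c j => by rw [pt_coe]; field_simp⟩

theorem exists_st (y : OnePoint ℂ) :
    ∃ s t : ℂ, ∀ (c : J → Fin 2 → ℂ) j, pt c y j = s * c j 0 + t * c j 1 := by
  induction y using OnePoint.rec with
  | infty => exact ⟨0, 1, fun c j => by simp [pt_infty]⟩
  | coe z => exact ⟨1, z, fun c j => by simp [pt_coe]⟩

end gen

/-- the standard lines -/
def M (ζ η : ℂ) : Fin 4 → Fin 2 → ℂ := ![![1, 0], ![ζ, 0], ![0, 1], ![0, η]]

/-- the minors -/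
def Dt (c : Fin 4 → Fin 2 → ℂ) (i j : Fin 4) : ℂ := c i 0 * c j 1 - c j 0 * c i 1

variable {c : Fin 4 → Fin 2 → ℂ}

theorem polar (h : ∀ y, ∑ j, pt c y j ^ 3 = 0) (i k l : Fin 4) :
    ∑ j, Dt c i j * Dt c k j * Dt c l j = 0 := by
  have h0 := h (0 : ℂ)
  have h1 := h (1 : ℂ)
  have h2 := h (-1 : ℂ)
  have h3 := h ∞
  simp only [pt_coe, pt_infty, Fin.sum_univ_four, Dt] at h0 h1 h2 h3 ⊢
  linear_combination -(c i 1 * c k 1 * c l 1) * h0 + c i 0 * c k 0 * c l 0 * h3 +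
    (c i 0 * c k 1 * c l 1 + c i 1 * c k 0 * c l 1 + c i 1 * c k 1 * c l 0) *
      (h1 - h2 - 2 * h3) / 6 -
    (c i 0 * c k 0 * c l 1 + c i 0 * c k 1 * c l 0 + c i 1 * c k 0 * c l 0) *
      (h1 + h2 - 2 * h0) / 6

theorem Dt_self (i : Fin 4) : Dt c i i = 0 := sub_self _

theorem Dt_rev (i j : Fin 4) : Dt c i j = -Dt c j i := (neg_sub _ _).symm

theorem std (h : ∀ y, ∑ j, pt c y j ^ 3 = 0) (hn : ∀ y, pt c y ≠ 0) (a : Dt c 0 1 = 0) :
    ∃ ζ η : ℂ, ζ ^ 3 = -1 ∧ η ^ 3 = -1 ∧ ∀ w, ∃ y, ∃ β : ℂ, pt (M ζ η) w = β • pt c y := by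
  have p := polar h
  have p1 := p 0 0 0
  have p2 := p 0 0 2
  have p3 := p 0 0 3
  have p4 := p 1 1 3
  have p5 := p 2 2 2
  have p6 := p 1 1 1
  simp only [Fin.sum_univ_four, Dt_self, a, Dt_rev 1 0, Dt_rev 2 0, Dt_rev 2 1, Dt_rev 3 2,
    neg_zero, mul_zero, zero_mul, zero_add, add_zero] at p1 p2 p3 p4 p5 p6
  have b : Dt c 2 3 = 0 := by_contra fun b => by
    have q1 : Dt c 0 2 = 0 := by simpa [b] using p3
    have q2 : Dt c 1 2 = 0 := by simpa [b] using p4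
    simp [q1, q2, b] at p5
  have e : Dt c 0 2 ≠ 0 := fun q1 => by
    have q2 : Dt c 0 3 = 0 := by simpa [q1] using p1
    have q3 : Dt c 1 2 = 0 := by simpa [q1, b] using p5
    have q4 : Dt c 1 3 = 0 := by simpa [q3] using p6
    have q : ∀ i j, Dt c i j = 0 := by
      simp only [Fin.forall_fin_succ]
      simp [Dt_self, a, b, q1, q2, q3, q4, Dt_rev 1 0, Dt_rev 2 0, Dt_rev 2 1, Dt_rev 3 2,
        Dt_rev 3 0, Dt_rev 3 1]
    refine hn (0 : ℂ) (funext fun i => ?_)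
    have := (indep hn (α := -c i 1) (β := c i 0) fun j => by
      linear_combination (norm := (rw [Dt]; ring1)) q i j).2
    simp [pt_coe, this]
  refine ⟨Dt c 1 2 / Dt c 0 2, Dt c 0 3 / Dt c 0 2, ?_, ?_, fun w => ?_⟩
  · field_simp
    linear_combination -p5 + Dt c 2 3 ^ 2 * b
  · field_simp
    linear_combination p1
  obtain ⟨s, t, e1⟩ := exists_st (J := Fin 4) w
  obtain ⟨y, β, e2⟩ := exists_par (J := Fin 4) ((s * c 2 1 - t * c 0 1) / Dt c 0 2)
    ((t * c 0 0 - s * c 2 0) / Dt c 0 2)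
  refine ⟨y, β, funext fun j => ?_⟩
  rw [e1, Pi.smul_apply, smul_eq_mul, ← e2, div_mul_eq_mul_div, div_mul_eq_mul_div, ← add_div,
    eq_div_iff e]
  fin_cases j <;> simp [M, mul_assoc, div_mul_cancel₀ _ e] <;> simp only [Dt] at a b ⊢
  · ring
  · linear_combination -t * a
  · ring
  · linear_combination s * b

theorem mem4 {ζ η : ℂ} (a : ζ ^ 3 = -1) (b : η ^ 3 = -1) (y : OnePoint ℂ) :
    pt (M ζ η) y ≠ 0 ∧ ∑ j, pt (M ζ η) y j ^ 3 = 0 := by
  induction y using OnePoint.rec with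
  | infty => exact ⟨fun e => by simpa [pt_infty, M] using congrFun e 2, by
      simp [pt_infty, M, Fin.sum_univ_four, b]⟩
  | coe z => exact ⟨fun e => by simpa [pt_coe, M] using congrFun e 0, by
      simp [pt_coe, M, Fin.sum_univ_four, a, b, mul_pow]⟩

/-- the three decompositions of the coordinates into two pairs -/
def pr (p : Fin 3) : Equiv.Perm (Fin 4) := Equiv.swap 1 p.succ

theorem sum_pr (p : Fin 3) (f : Fin 4 → ℂ) : ∑ j, f (pr p j) = ∑ j, f j := Equiv.sum_comp (pr p) f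

theorem pr_pr (p : Fin 3) (j : Fin 4) : pr p (pr p j) = j := Equiv.swap_apply_self _ _ _

theorem all4 (h : ∀ y, ∑ j, pt c y j ^ 3 = 0) (hn : ∀ y, pt c y ≠ 0) :
    ∃ p, ∃ ζ η : ℂ, ζ ^ 3 = -1 ∧ η ^ 3 = -1 ∧
      ∀ w, ∃ y, ∃ β : ℂ, pt (M ζ η ∘ pr p) w = β • pt c y := by
  obtain ⟨p, a⟩ : ∃ p : Fin 3, Dt c p.succ 0 = 0 := by
    have := polar h 1 2 3
    simp only [Fin.sum_univ_four, Dt_self, mul_zero, zero_mul, add_zero, mul_eq_zero] at this
    rcases this with (a | a) | a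
    exacts [⟨0, a⟩, ⟨1, a⟩, ⟨2, a⟩]
  obtain ⟨ζ, η, a1, a2, a3⟩ := std (c := c ∘ pr p) (fun y => (sum_pr p fun j => pt c y j ^ 3).trans (h y))
    (fun y e => hn y (funext fun j => by simpa [pt, pr_pr] using congrFun e (pr p j))) (by
      rw [Dt_rev, neg_eq_zero, ← a]
      fin_cases p <;> rfl)
  refine ⟨p, ζ, η, a1, a2, fun w => ?_⟩
  obtain ⟨y, β, e⟩ := a3 w
  exact ⟨y, β, funext fun j => by simpa [pt, pr_pr] using congrFun e (pr p j)⟩

theorem dis4 {p q : Fin 3} {ζ η ζ' η' : ℂ} (h0 : ζ' ≠ 0)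
    (h : ∀ y, ∃ w, ∃ β : ℂ, pt (M ζ η ∘ pr p) y = β • pt (M ζ' η' ∘ pr q) w) :
    p = q ∧ ζ = ζ' ∧ η = η' := by
  obtain ⟨w, β, e⟩ := h (0 : ℂ)
  obtain ⟨w', β', e'⟩ := h ∞
  obtain ⟨s, t, k⟩ := exists_st (J := Fin 4) w
  obtain ⟨s', t', k'⟩ := exists_st (J := Fin 4) w'
  have a := congrFun e
  have a' := congrFun e'
  simp only [pt_coe, pt_infty, k, k', Pi.smul_apply, smul_eq_mul, comp_apply, zero_mul,
    add_zero] at a a'
  have b : β * s = 1 := by
    have := a 0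
    fin_cases p <;> fin_cases q <;> simpa [pr, M, eq_comm, Equiv.swap_apply_def] using this
  obtain rfl : p = q := by
    have := a q.succ
    rw [show pr q q.succ = 1 from Equiv.swap_apply_right _ _] at this
    simp only [M, Matrix.cons_val, mul_zero, add_zero, ← mul_assoc, b, one_mul] at this
    fin_cases p <;> fin_cases q <;>
      simp [pr, h0.symm, Equiv.swap_apply_def] at this ⊢
  have c1 := a (pr p 1)
  have c2 := a' (pr p 2)
  have c3 := a' (pr p 3)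
  simp only [pr_pr, M, Matrix.cons_val, mul_zero, add_zero, zero_add, mul_one] at c1 c2 c3
  exact ⟨rfl, by linear_combination c1 + ζ' * b, by linear_combination c3 - η' * c2⟩

theorem rig4 (p : Fin 3) (ζ η : ℂ) : ∃ φ : (Fin 2 → ℂ) × (Fin 2 → ℂ) →ₗ[ℂ] Fin 4 → Fin 2 → ℂ,
    ∀ c, (∀ y, ∑ j, pt (M ζ η ∘ pr p) y j ^ 2 * pt c y j = 0) → ∃ v, φ v = c := by
  refine ⟨.pi fun j => ![-ζ ^ 2 • .fst ℂ _ _, .fst ℂ _ _, -η ^ 2 • .snd ℂ _ _, .snd ℂ _ _] (pr p j),
    fun c h => ⟨(c (pr p 1), c (pr p 3)), funext fun j => ?_⟩⟩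
  have k : ∀ y, ∑ j, pt (M ζ η) y j ^ 2 * pt (c ∘ pr p) y j = 0 := fun y => by
    rw [← h y, ← sum_pr p]
    simp [pt, pr_pr]
  have h0 := k (0 : ℂ)
  have h1 := k (1 : ℂ)
  have h2 := k (-1 : ℂ)
  have h3 := k ∞
  simp only [pt_coe, pt_infty, Fin.sum_univ_four, M, Matrix.cons_val, comp_apply] at h0 h1 h2 h3
  obtain ⟨j, rfl⟩ := (pr p).surjective j
  rw [LinearMap.pi_apply, pr_pr]
  fin_cases j
  · refine funext (Fin.forall_fin_two.2 ⟨?_, ?_⟩) <;> simp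
    · linear_combination -h0
    · linear_combination h3 - (h1 - h2) / 2
  · rfl
  · refine funext (Fin.forall_fin_two.2 ⟨?_, ?_⟩) <;> simp
    · linear_combination h0 - (h1 + h2) / 2
    · linear_combination -h3
  · rfl

variable {J K : Type} [Fintype J] [Fintype K] [Unique K]

/-- the Fermat cubic -/
noncomputable def fer (J K : Type) [Fintype J] : K → MvPolynomial J ℂ := fun _ => ∑ j, X j ^ 3

theorem grad_fer (x : J → ℂ) (k : K) (j : J) : eval x (pderiv j (fer J K k)) = 3 * x j ^ 2 := by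
  classical
  simp [fer, pderiv_X, Pi.single_apply, apply_ite]

theorem mem_fer {x : J → ℂ} : x ∈ (ciK (fer J K)).cone ↔ x ≠ 0 ∧ ∑ j, x j ^ 3 = 0 := by
  simp [mem_ciK, fer]

theorem smCI_fer [Nonempty J] : SmCI (fer J K) fun _ => 3 where
  hom _ := .sum _ _ _ fun j _ => isHomogeneous_X_pow j 3
  pos _ := by norm_num
  ne k e := by simpa [e] using grad_fer 1 k (Classical.arbitrary J)
  li x hx := linearIndependent_unique_iff.2 fun e => hx.1 (funext fun j => by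
    simpa [grad_fer] using congrFun e j)

/-- the index set of the lines -/
abbrev Ix := Fin 3 × rootsOfUnity 3 ℂ × rootsOfUnity 3 ℂ

theorem card_Ix : Nat.card Ix = 27 := by
  rw [Nat.card_prod, Nat.card_prod, Complex.card_rootsOfUnity, Nat.card_fin]

/-- cube roots of `-1` -/
noncomputable def rt (ω : rootsOfUnity 3 ℂ) : ℂ := -(ω : ℂˣ)

theorem rt_pow (ω : rootsOfUnity 3 ℂ) : rt ω ^ 3 = -1 := by
  rw [rt, Odd.neg_pow (by decide), (mem_rootsOfUnity' 3 _).1 ω.2]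

theorem exists_rt {ζ : ℂ} (h : ζ ^ 3 = -1) : ∃ ω, rt ω = ζ :=
  ⟨rootsOfUnity.mkOfPowEq (-ζ) (by linear_combination -h), neg_neg ζ⟩

theorem lns_fer (ε : J ≃ Fin 4) :
    Lns (ciF (fer J K) fun _ => 3) fun i : Ix => (M (rt i.2.1) (rt i.2.2) ∘ pr i.1) ∘ ε where
  ne _ h := (mem_ciF.1 h).1
  mem i y := by
    obtain ⟨a1, a2⟩ := mem4 (rt_pow i.2.1) (rt_pow i.2.2) y
    exact mem_ciF.2 (mem_fer.2 ⟨fun e => a1 (funext fun j => by
      simpa [pt, pr_pr] using congrFun e (ε.symm (pr i.1 j))),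
      ((ε.trans (pr i.1)).sum_comp fun j => pt (M _ _) y j ^ 3).trans a2⟩)
  all c h := by
    have h' := fun y => mem_fer.1 (mem_ciF.1 (h y))
    obtain ⟨p, ζ, η, a1, a2, a3⟩ := all4 (c := c ∘ ε.symm)
      (fun y => (ε.symm.sum_comp fun j => pt c y j ^ 3).trans (h' y).2) fun y e =>
        (h' y).1 (funext fun j => by simpa [pt] using congrFun e (ε j))
    obtain ⟨ω, rfl⟩ := exists_rt a1
    obtain ⟨ω', rfl⟩ := exists_rt a2
    refine ⟨(p, ω, ω'), fun w => ?_⟩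
    obtain ⟨y, β, e⟩ := a3 w
    exact ⟨y, β, funext fun j => by simpa [pt] using congrFun e (ε j)⟩
  dis i j h := by
    obtain ⟨a1, a2, a3⟩ := dis4 (p := i.1) (q := j.1) (ζ := rt i.2.1) (η := rt i.2.2)
      (ζ' := rt j.2.1) (η' := rt j.2.2) (neg_ne_zero.2 (Units.ne_zero _)) fun y => by
        obtain ⟨w, β, e⟩ := h y
        exact ⟨w, β, funext fun l => by simpa [pt] using congrFun e (ε.symm l)⟩
    exact Prod.ext a1 (Prod.ext (Subtype.ext (Units.ext (neg_injective a2)))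
      (Subtype.ext (Units.ext (neg_injective a3))))
  rig i := by
    obtain ⟨φ, hφ⟩ := rig4 i.1 (rt i.2.1) (rt i.2.2)
    refine ⟨LinearMap.range (LinearMap.funLeft ℂ _ ε ∘ₗ φ), (LinearMap.finrank_range_le _).trans
      (by simp), fun c h => ?_⟩
    obtain ⟨v, e⟩ := hφ (c ∘ ε.symm) fun y => by
      have := h y default
      simp only [Fam.jac, ciF_fib, grad_fer, mul_assoc, ← Finset.mul_sum] at this
      rw [← ε.sum_comp]
      simpa [pt] using this
    exact ⟨v, funext fun j => by simp [e]⟩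

end Vale.Agent.P269.San2
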