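import Vale.Agent.P269.Map.TZ
import Vale.Agent.P269.Map.Gy
import Vale.Agent.P269.Bas.NF
import Vale.Agent.P269.Br.Fund
import Vale.Agent.P269.Loc.Core

/-!
# Finitely many free orbits that are cut out transversally
-/

set_option linter.unusedSectionVars false
set_option linter.style.haveILetI false

namespace Vale.Agent.P269.San2

open Set Function Topology Filter Module Vale.Agent.P291Z Vale.Agent.P269.Orb Holo Ch Ch.KD

variable {A W P : Type} [NormedRing A] [NormedAlgebra ℂ A] [NormedAddCommGroup W]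
  [NormedSpace ℂ W] [FiniteDimensional ℂ A] [FiniteDimensional ℂ W]
  {act : A → W → W} {Z O : Set W}

section orb

variable [IsAct act Z] (ho : Orb Aˣ (Holo.Sp act Z)) [Finite (Quo act Z)]
  (hf : ∀ x ∈ Z, ∀ a, IsUnit a → act a x = x → a = 1)
include ho hf

theorem mf_zero : Mf A Z 0 := fun x hx => by
  haveI := FiniteDimensional.complete ℂ A
  haveI := FiniteDimensional.complete ℂ W
  haveI := nice_of_orb ho
  haveI := ho.proper
  haveI := ho.nice
  let t : Holo.Sp act Z := .of act x hx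
  have h1 : Injective fun g : Aˣ => g • t := fun g g' e =>
    (inv_mul_eq_one.1 ((Holo.Sp.free_iff (x := t)).1 (hf x hx) _ (by
      rw [mul_smul]; exact inv_smul_eq_iff.2 e.symm)))
  have h2 : IsClosedMap fun g : Aˣ => g • t := fun C hC => by
    have := (ProperSMul.isProperMap_smul_pair (G := Aˣ) (X := Holo.Sp act Z)).isClosedMap _
      (hC.prod (isClosed_singleton (x := t)))
    refine (congrArg IsClosed (Set.ext fun y => ?_)).mp
      (this.preimage (continuous_id.prodMk (continuous_const (y := t))))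
    exact ⟨fun ⟨⟨g, s⟩, ⟨a, b⟩, c⟩ => ⟨g, a, (congrArg (g • ·) (show s = t from b).symm).trans
      (congrArg Prod.fst c)⟩, fun ⟨g, a, b⟩ => ⟨(g, t), ⟨a, rfl⟩, Prod.ext b rfl⟩⟩
  have h3 : IsOpenEmbedding fun g : Aˣ => g • t :=
    ⟨(IsClosedEmbedding.of_continuous_injective_isClosedMap (by fun_prop) h1 h2).isEmbedding, by
      refine (congrArg IsOpen (Set.ext fun y => ?_)).mp
        ((isOpen_discrete {Holo.Sp.mk t}).preimage Holo.Sp.continuous_mk)
      exact eq_comm.trans Holo.Sp.mk_eq_iff⟩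
  have h4 : IsParam Holo.Sp.val (fun a : A => expU a • t) 0 := IsParam.of_map_nhds
    (.of_forall fun _ => (isExp_expU.cont.smul continuous_const).continuousAt)
    (.of_forall fun _ => Holo.Sp.continuous_val.continuousAt) (Holo.Sp.holAct t).an_orbit
    (Holo.Sp.inf_injective_of_finite (ho.finite_stabilizer t)) (by
      rw [← h3.map_nhds_eq, show expU (0 : A) = 1 from isExp_expU.zero, ← isExp_expU.map_nhds,
        map_map]
      rfl)
  have h5 := h4.isMfd (add_zero _).symm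
  rw [isExp_expU.zero, one_smul] at h5
  exact ⟨hx, h5⟩

theorem ev_fnd : ev (fnd act Z 0) 1 = Nat.card (Quo act Z) := by
  classical
  haveI := FiniteDimensional.complete ℂ A
  haveI := FiniteDimensional.complete ℂ W
  haveI := nice_of_orb ho
  haveI := Fintype.ofFinite (Quo act Z)
  have h := holOrb_of_orb ho fun x => (mf_zero ho hf _ x.2).2
  have c : ∀ z : Quo act Z, supp (δ (ind {z})) = ∅ := fun z => cocycle_ind' (isClopen_discrete _)
  have k : ∀ z : Quo act Z, ev (fnd act Z 0) (ind {z}) = 1 := fun z => by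
    obtain ⟨t, rfl⟩ := Holo.Sp.surjective_mk z
    obtain ⟨φ, h1, rfl⟩ := h.slice t
    have h2 := h.val isQuo_sp h1 (ind {Holo.Sp.mk (φ 0)}) 1 (c _) (fun y hy => by
      obtain ⟨l, a, b⟩ := hy {y} ((isOpen_discrete _).mem_nhds rfl)
      by_contra e
      refine b (if_neg ?_)
      rintro ⟨w, rfl, rfl⟩
      exact e (a _ (List.mem_singleton_self _)).symm) (by
      have := locCo_tau (n := 0)
      rw [tau_zero] at this
      rwa [pull_ind, show (Holo.Sp.mk ∘ φ) ⁻¹' {Holo.Sp.mk (φ 0)} = univ from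
        eq_univ_of_forall fun v => congrArg (Holo.Sp.mk ∘ φ) (Subsingleton.elim v 0), ind_eq_fn,
        indicator_univ, show fn (1 : (Fin 0 → ℂ) → ℂ) = 1 from fn_one])
    rwa [stab_eq_one (Holo.Sp.free_iff.1 (hf _ (φ 0).val_mem)), Nat.cast_one, one_mul] at h2
  have e : (1 : Coch (Quo act Z)) = ∑ z, ind {z} := by
    simp only [ind_eq_fn, ← Loc.fn_sum, ← fn_one]
    exact congrArg fn (funext fun y => by simp)
  have s : ∀ T : Finset (Quo act Z), (∑ z ∈ T, ind {z}) ∈ Zc (Quo act Z) ∧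
      ev (fnd act Z 0) (∑ z ∈ T, ind {z}) = T.card := fun T => by
    induction T using Finset.induction_on with
    | empty => exact ⟨zero_mem _, by
        have := ev_smul (fnd act Z 0) 0 (zero_mem _)
        simpa using this⟩
    | insert z T a b =>
      have m : ind {z} ∈ Zc (Quo act Z) := ⟨(toFinite _).isCompact, c z⟩
      rw [Finset.sum_insert a, Orb.ev_add _ m b.1, k, b.2, Finset.card_insert_of_notMem a]
      exact ⟨add_mem m b.1, by push_cast; ring⟩
  rw [e, (s _).2, Finset.card_univ, Nat.card_eq_fintype_card]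

end orb

variable [AddCommGroup P] [Module ℂ P] [TopologicalSpace P] [IsTopologicalAddGroup P]
  [ContinuousSMul ℂ P] [T2Space P] {D : KD A W P} {n r : ℕ}

/-- The tangent vectors that are killed by all tests. -/
noncomputable def krn (D : KD A W P) (O : Set W) (x : O) : Submodule ℂ W :=
  tan Subtype.val x ⊓ ⨅ (p : (W → P →ₗ[ℂ] ℂ) × (W → ℂ)) (_ : D.Tst O x p.1 p.2),
    (fderiv ℂ p.2 x).ker

theorem mem_krn {x : O} {v : W} : v ∈ krn D O x ↔ v ∈ tan Subtype.val x ∧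
    ∀ m ψ, D.Tst O x m ψ → fderiv ℂ ψ x v = 0 := by
  simp [krn, Submodule.mem_iInf]

variable (h : D.Gd act Z O n r)
include h

theorem an_act {a : A} (ha : IsUnit a) {x : W} (hx : x ∈ O) : AnalyticAt ℂ (act a) x :=
  (h.dom.isAct.an a ha x hx).comp_of_eq (f := fun y => (a, y))
    (analyticAt_const.prod analyticAt_id) rfl

theorem tst_act {a : A} (ha : IsUnit a) {x : W} (hx : x ∈ O) {m : W → P →ₗ[ℂ] ℂ} {ψ : W → ℂ}
    (H : D.Tst O (act a x) m ψ) : ∃ m', D.Tst O x m' fun y => ψ (act a y) := by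
  haveI := FiniteDimensional.complete ℂ W
  obtain ⟨B, hB⟩ := LinearMap.exists_extend (p := D.P₀) (⟨⟨fun q => D.ρ a q, fun q q' =>
    h.ok.rep.add a ha _ q.2 _ q'.2⟩, fun z q => h.ok.rep.smul a ha z _ q.2⟩ : D.P₀ →ₗ[ℂ] P)
  have e : ∀ q ∈ D.P₀, B q = D.ρ a q := fun q hq => LinearMap.congr_fun hB ⟨q, hq⟩
  have m1 : MapsTo (act a) O O := h.dom.isAct.mem a ha
  have c : Tendsto (act a) (𝓝[O] x) (𝓝[O] act a x) :=
    (an_act h ha hx).continuousAt.continuousWithinAt.tendsto_nhdsWithin m1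
  refine ⟨fun y => m (act a y) ∘ₗ B, H.an.comp (an_act h ha hx), fun w hw => ?_, ?_, ?_⟩
  · filter_upwards [c.eventually (H.cont _ (h.ok.rep.mem a ha w hw)), self_mem_nhdsWithin]
      with y b d
    simp only [LinearMap.comp_apply, e w hw]
    exact b.comp (an_act h ha d).continuousAt.continuousWithinAt m1
  · filter_upwards [c.eventually H.van, self_mem_nhdsWithin] with y b d w hw
    exact (congrArg _ (e w (h.ok.fam.le y d hw))).trans (b _ (h.ok.fam.inv y d a ha w hw))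
  · filter_upwards [c.eventually H.sec, self_mem_nhdsWithin] with y b d
    exact (congrArg _ ((e _ (h.ok.mem y d)).trans (h.ok.eqv y d a ha).symm)).trans b

theorem finrank_krn_le {a : A} (ha : IsUnit a) (x : O) :
    finrank ℂ (krn D O x) ≤ finrank ℂ (krn D O ⟨act a x, h.dom.isAct.mem a ha _ x.2⟩) := by
  obtain ⟨g, rfl⟩ := ha
  have a1 := an_act h g.isUnit x.2
  have a2 := an_act h g⁻¹.isUnit (h.dom.isAct.mem _ g.isUnit _ x.2)
  have c : Tendsto (fun s : O => (⟨act g s, h.dom.isAct.mem _ g.isUnit _ s.2⟩ : O)) (𝓝 x)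
      (𝓝 ⟨act g x, h.dom.isAct.mem _ g.isUnit _ x.2⟩) :=
    tendsto_subtype_rng.2 (a1.continuousAt.tendsto.comp (continuous_subtype_val.tendsto x))
  have d : ∀ {V : Type} [NormedAddCommGroup V] [NormedSpace ℂ V] {Φ : W → V},
      AnalyticAt ℂ Φ (act g x) → ∀ v, fderiv ℂ Φ (act g x) (fderiv ℂ (act g) x v) =
        fderiv ℂ (fun y => Φ (act g y)) x v := fun b v =>
    (DFunLike.congr_fun (fderiv_comp _ b.differentiableAt a1.differentiableAt) v).symm
  rw [← finrank_map_of_inj (S := krn D O x) (f := (fderiv ℂ (act g) x).toLinearMap)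
    fun v hv e => ?_]
  · refine Submodule.finrank_mono ?_
    rintro _ ⟨v, hv, rfl⟩
    obtain ⟨b1, b2⟩ := mem_krn.1 hv
    refine mem_krn.2 ⟨fun Φ e1 e2 => (d e1 v).trans (b1 _ (AnalyticAt.comp (g := Φ) (f := act g) e1 a1) (c.eventually e2)),
      fun m ψ H => ?_⟩
    obtain ⟨m', H'⟩ := tst_act h g.isUnit x.2 H
    exact (d H.an v).trans (b2 _ _ H')
  · have k := (mem_krn.1 hv).1 (fun y => act (↑g⁻¹) (act g y) - y)
      ((a2.comp a1).sub analyticAt_id) (.of_forall fun s => sub_eq_zero.2 (by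
        rw [← h.dom.isAct.mul _ _ g⁻¹.isUnit g.isUnit _ s.2, Units.inv_mul, h.dom.isAct.one _ s.2]))
    rw [fderiv_fun_sub (f := fun y => act (↑g⁻¹) (act g y)) (a2.comp a1).differentiableAt
      differentiableAt_fun_id,
      _root_.sub_apply, ← d a2, show fderiv ℂ (act g) x v = 0 from e, map_zero,
      fderiv_fun_id] at k
    simpa using k

omit h in
theorem fderiv_tst {V : Type} [NormedAddCommGroup V] [NormedSpace ℂ V] [FiniteDimensional ℂ V]
    {i : V →ₗ[ℂ] P} (hi : ∀ u, i u ∈ D.P₀) {Φ : W → V} {x v : W} (hx : x ∈ O)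
    (hΦ : AnalyticAt ℂ Φ x) (hs : ∀ y, i (Φ y) = D.s y)
    (h1 : ∀ᶠ ε : ℂ in 𝓝 0, x + ε • v ∈ O ∧ D.s x ∈ D.van (x + ε • v))
    {m : W → P →ₗ[ℂ] ℂ} {ψ : W → ℂ} (H : D.Tst O x m ψ) :
    fderiv ℂ ψ x v = m x (i (fderiv ℂ Φ x v)) := by
  have a : HasDerivAt (fun ε : ℂ => x + ε • v) v 0 := by
    simpa using ((hasDerivAt_id (0 : ℂ)).smul_const v).const_add x
  have c : Tendsto (fun ε : ℂ => x + ε • v) (𝓝 0) (𝓝[O] x) :=
    tendsto_nhdsWithin_iff.2 ⟨by simpa using a.continuousAt.tendsto, h1.mono fun _ b => b.1⟩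
  have b := (H.an.differentiableAt.hasFDerivAt.comp_hasDerivAt_of_eq (0 : ℂ) a
    (by simp)).tendsto_slope_zero
  have b' := (hΦ.differentiableAt.hasFDerivAt.comp_hasDerivAt_of_eq (0 : ℂ) a
    (by simp)).tendsto_slope_zero
  let M : ℂ → V →L[ℂ] ℂ := fun ε => LinearMap.toContinuousLinearMap (m (x + ε • v) ∘ₗ i)
  have d : ContinuousAt M 0 := continuousAt_clm_apply.2 fun u => by
    have := ((H.cont _ (hi u)).self_of_nhdsWithin hx).tendsto.comp c
    simpa [M, ContinuousAt, comp_def] using this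
  have z : ψ x = 0 := (H.sec.self_of_nhdsWithin hx).symm.trans (H.van.self_of_nhdsWithin hx _
    (by simpa using h1.self_of_nhds.2))
  refine (tendsto_nhds_unique b ((tendsto_clm (d.tendsto.mono_left nhdsWithin_le_nhds) b').congr'
    (((h1.and ((c.eventually H.van).and (c.eventually H.sec))).filter_mono
      nhdsWithin_le_nhds).mono fun ε e => ?_))).trans (by simp [M])
  simp [M, hs, e.2.1 _ e.1.2, e.2.2, z]

/-- **the virtual number of finitely many free orbits that are cut out transversally** -/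
theorem ev_vr [Finite (Quo act Z)] (hO : Mf A O r)
    (hf : ∀ x ∈ Z, ∀ a, IsUnit a → act a x = x → a = 1) (hs : ∀ x ∈ Z, D.Sep O x)
    (ht : ∀ x ∈ Z, ∃ a, IsUnit a ∧ ∃ E N : Submodule ℂ W, finrank ℂ N + r ≤ finrank ℂ E ∧
      (∀ v ∈ E, ∀ᶠ ε : ℂ in 𝓝 0, act a x + ε • v ∈ O) ∧ ∀ v ∈ E,
        (∀ m ψ, D.Tst O (act a x) m ψ → fderiv ℂ ψ (act a x) v = 0) → v ∈ N) :
    ev (D.vr act Z O (h.fu r)) 1 = Nat.card (Quo act Z) := by
  haveI := h.isActZ
  have hZ := mf_zero h.orbZ hf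
  rw [← ev_fnd h.orbZ hf, ← h.vr_tz (d := 0) (by rwa [zero_add]) hZ (fun x hx v ⟨hx', hv⟩ H => ?_) hs,
    zero_add]
  obtain ⟨a, ha, E, N, h1, h2, h3⟩ := ht x hx
  have hy := h.dom.isAct.mem a ha x hx'
  have k1 : E ≤ tan Subtype.val (⟨_, hy⟩ : O) := fun u hu => by
    have b : HasDerivAt (fun ε : ℂ => act a x + ε • u) u 0 := by
      simpa using ((hasDerivAt_id (0 : ℂ)).smul_const u).const_add (act a x)
    exact b.deriv ▸ Arc.mem_tan ⟨by fun_prop, by simp, h2 u hu⟩ hy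
  have k2 := Submodule.finrank_sup_add_finrank_inf_eq (krn D O ⟨_, hy⟩) E
  have k3 := Submodule.finrank_mono (show krn D O ⟨_, hy⟩ ⊔ E ≤ _ from sup_le inf_le_left k1)
  have k4 := Submodule.finrank_mono (show krn D O ⟨_, hy⟩ ⊓ E ≤ N from fun u hu =>
    h3 u hu.2 (mem_krn.1 hu.1).2)
  have k5 := finrank_krn_le h ha ⟨x, hx'⟩
  rw [(hO _ hy).2.finrank_tan] at k3
  have k6 : tan Subtype.val (⟨x, hx⟩ : Z) ≤ krn D O ⟨x, hx'⟩ := fun u hu => mem_krn.2
    ⟨tan_le_of_comp (ι := Subtype.val) (u := inclusion h.dom.sub) (t' := ⟨x, hx⟩)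
      (continuous_inclusion _).continuousAt hu, fun m ψ b =>
        (hZ _ hx).2.fderiv_eq_zero b.an ?_ hu⟩
  · exact ⟨hx, (Submodule.eq_of_le_of_finrank_le k6 (by
      rw [(hZ _ hx).2.finrank_tan]; dsimp only at k5; omega)).ge (mem_krn.2 ⟨hv, H⟩)⟩
  · have c : Tendsto (Subtype.val : Z → W) (𝓝 ⟨x, hx⟩) (𝓝[O] x) := tendsto_nhdsWithin_iff.2
      ⟨continuous_subtype_val.tendsto _, .of_forall fun s => h.dom.sub s.2⟩
    filter_upwards [c.eventually b.van, c.eventually b.sec] with s d e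
    exact e.symm.trans (d _ ((h.dom.zero _ (h.dom.sub s.2)).2 s.2))

/-- the same for a system of representatives of the orbits -/
theorem ev_pts {I : Type} [Finite I] {p : I → W} (hO : Mf A O r) (hp : ∀ i, p i ∈ Z)
    (h1 : ∀ x ∈ Z, ∃ a, IsUnit a ∧ ∃ i, act a x = p i)
    (h2 : ∀ i j a, IsUnit a → act a (p i) = p j → i = j ∧ a = 1) (hs : ∀ x ∈ Z, D.Sep O x)
    (ht : ∀ i, ∃ E N : Submodule ℂ W, finrank ℂ N + r ≤ finrank ℂ E ∧
      (∀ v ∈ E, ∀ᶠ ε : ℂ in 𝓝 0, p i + ε • v ∈ O) ∧ ∀ v ∈ E,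
        (∀ m ψ, D.Tst O (p i) m ψ → fderiv ℂ ψ (p i) v = 0) → v ∈ N) :
    ev (D.vr act Z O (h.fu r)) 1 = Nat.card I := by
  haveI := h.isActZ
  have b : Bijective fun i => Holo.Sp.mk (Holo.Sp.of act (p i) (hp i)) :=
    ⟨fun i j e => let ⟨g, c⟩ := Holo.Sp.mk_eq_iff.1 e
      (h2 i j _ g.isUnit (congrArg Holo.Sp.val c)).1, Holo.Sp.surjective_mk.forall.2 fun x => by
        obtain ⟨_, ⟨g, rfl⟩, i, c⟩ := h1 _ x.val_mem
        exact ⟨i, ((Holo.Sp.mk_eq_iff (x := x) (y := .of act (p i) (hp i))).2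
          ⟨g, Holo.Sp.ext c⟩).symm⟩⟩
  haveI := Finite.of_surjective _ b.2
  rw [Nat.card_eq_of_bijective _ b]
  refine ev_vr h hO (fun x hx a ha e => ?_) hs fun x hx => ?_
  · obtain ⟨_, ⟨g, rfl⟩, i, c⟩ := h1 x hx
    have k := h.isActZ.mul
    have d := (h2 i i (g * a * ↑g⁻¹) ((g.isUnit.mul ha).mul g⁻¹.isUnit) (by
      rw [← c, ← k _ _ ((g.isUnit.mul ha).mul g⁻¹.isUnit) g.isUnit x hx, Units.inv_mul_cancel_right,
        k _ _ g.isUnit ha x hx, e])).2
    rwa [Units.mul_inv_eq_one, g.isUnit.mul_eq_left] at d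
  · obtain ⟨a, ha, i, c⟩ := h1 x hx
    exact ⟨a, ha, c ▸ ht i⟩

end Vale.Agent.P269.San2
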